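import Vale.Agent.P232.BandFree.Low

/-!
# P232 tube corner: the gain of the chord calibration of `√(π t)`

On any `[a, b] ⊆ [0, 1]` the chord calibration gains two thirds of `(√b - √a)²`; around a tube
volume this dominates both `(√b - √a)² / 6` and `(√b - √V)² / 2`.
-/

open MeasureTheory Set
open scoped Real

noncomputable section

namespace Vale.Agent.P232.Corner

/-- The chord weight: `chord a b t * √(π t)` is affine. -/
def chord (a b t : ℝ) : ℝ :=
  (Real.sqrt a * Real.sqrt b + t) / ((Real.sqrt a + Real.sqrt b) * Real.sqrt t)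

variable {a b : ℝ}

theorem chord_nonneg (t : ℝ) (ht : 0 ≤ t) : 0 ≤ chord a b t := by
  unfold chord; positivity

theorem chord_le_one {t : ℝ} (ha : 0 ≤ a) (ht : t ∈ Icc a b) : chord a b t ≤ 1 := by
  rcases (mul_nonneg (add_nonneg (Real.sqrt_nonneg a) (Real.sqrt_nonneg b))
    (Real.sqrt_nonneg t)).eq_or_lt with h0 | h0
  · rw [chord, ← h0, div_zero]; exact zero_le_one
  rw [chord, div_le_one h0]
  have ht0 := Real.sq_sqrt (ha.trans ht.1)
  nlinarith [mul_nonneg (sub_nonneg.2 (Real.sqrt_le_sqrt ht.1)) (sub_nonneg.2 (Real.sqrt_le_sqrt ht.2))]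

theorem continuousOn_chord (ha : 0 ≤ a) (hb : 0 < b) :
    ContinuousOn (chord a b) (Icc a b) := by
  have hS : Real.sqrt a + Real.sqrt b ≠ 0 :=
    (add_pos_of_nonneg_of_pos (Real.sqrt_nonneg a) (Real.sqrt_pos.2 hb)).ne'
  rcases ha.eq_or_lt with rfl | ha'
  · refine ContinuousOn.congr (f := fun t => Real.sqrt t / (Real.sqrt 0 + Real.sqrt b))
      (by fun_prop) fun t _ => ?_
    rw [chord, Real.sqrt_zero, zero_mul, zero_add, mul_comm, ← div_div, Real.div_sqrt, zero_add]
  · exact ContinuousOn.div (by fun_prop) (by fun_prop) fun t ht =>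
      mul_ne_zero hS (Real.sqrt_pos.2 (ha'.trans_le ht.1)).ne'

theorem chord_mul_sqrt {t : ℝ} (ha : 0 ≤ a) (ht : a ≤ t) :
    chord a b t * Real.sqrt (π * t) = Real.sqrt π / (Real.sqrt a + Real.sqrt b) * t +
      Real.sqrt π / (Real.sqrt a + Real.sqrt b) * (Real.sqrt a * Real.sqrt b) := by
  rcases (ha.trans ht).eq_or_lt with rfl | ht0
  · have ha0 : a = 0 := le_antisymm ht ha
    simp [ha0]
  have h1 := (Real.sqrt_pos.2 ht0).ne'
  rw [chord, Real.sqrt_mul Real.pi_pos.le]
  rcases eq_or_ne (Real.sqrt a + Real.sqrt b) 0 with h | h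
  · simp [h]
  field_simp
  ring

/-- The gain of the chord calibration. -/
theorem chord_gain (ha : 0 ≤ a) (hab : a ≤ b) (hb0 : 0 < b) :
    2 / 3 * (Real.sqrt b - Real.sqrt a) ^ 2 ≤
      ∫ t in a..b, Real.sqrt (1 - chord a b t ^ 2) := by
  set x := Real.sqrt a
  set y := Real.sqrt b
  have hxa : x ^ 2 = a := Real.sq_sqrt ha
  have hyb : y ^ 2 = b := Real.sq_sqrt (ha.trans hab)
  have hx0 : 0 ≤ x := Real.sqrt_nonneg _
  have hy0 : 0 < y := Real.sqrt_pos.2 hb0
  have hxy : x ≤ y := Real.sqrt_le_sqrt hab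
  have hS : 0 < x + y := by linarith
  set K : ℝ → ℝ := fun t => Real.sqrt ((b - t) * (1 - a / t)) / (x + y)
  have hK : ∀ t ∈ Ioo a b, Real.sqrt (1 - chord a b t ^ 2) = K t := by
    intro t ht
    have ht0 : 0 < t := ha.trans_lt ht.1
    rw [show K t = Real.sqrt (((b - t) * (1 - a / t)) / (x + y) ^ 2) by
      rw [Real.sqrt_div' _ (sq_nonneg _), Real.sqrt_sq hS.le]]
    congr 1
    have hst := Real.sq_sqrt ht0.le
    rw [show chord a b t = (x * y + t) / ((x + y) * Real.sqrt t) from rfl, div_pow, mul_pow, hst,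
      ← hxa, ← hyb]
    field_simp
    ring
  have hKc : ContinuousOn K (Icc a b) := by
    rcases ha.eq_or_lt with rfl | ha'
    · simp only [K, zero_div, sub_zero, mul_one]; fun_prop
    · refine ContinuousOn.div_const (ContinuousOn.sqrt (ContinuousOn.mul (by fun_prop)
        (continuousOn_const.sub (continuousOn_const.div continuousOn_id fun t ht =>
          (ha'.trans_le ht.1).ne')))) _
  rw [intervalIntegral.integral_congr_Ioo_of_le hab fun t ht => hK t ht]
  have hsub := intervalIntegral.integral_comp_mul_deriv' (a := x) (b := y) (f := fun R : ℝ => R ^ 2)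
    (f' := fun R => 2 * R) (g := K) (fun R _ => by simpa using hasDerivAt_pow 2 R)
    (by fun_prop) (hKc.mono (by
      rintro _ ⟨R, hR, rfl⟩
      rw [uIcc_of_le hxy] at hR
      exact ⟨hxa ▸ pow_le_pow_left₀ hx0 hR.1 2, hyb ▸ pow_le_pow_left₀ (hx0.trans hR.1) hR.2 2⟩))
  simp only [hxa, hyb, Function.comp_apply] at hsub
  have e : ∫ R in x..y, K (R ^ 2) * (2 * R) =
      2 / (x + y) * ∫ R in x..y, Real.sqrt ((R ^ 2 - x ^ 2) * (y ^ 2 - R ^ 2)) := by
    rw [← intervalIntegral.integral_const_mul]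
    refine intervalIntegral.integral_congr_Ioo_of_le hxy fun R hR => ?_
    have hR0 : 0 < R := hx0.trans_lt hR.1
    show Real.sqrt _ / (x + y) * (2 * R) = _
    rw [show (R ^ 2 - x ^ 2) * (y ^ 2 - R ^ 2) = R ^ 2 * ((b - R ^ 2) * (1 - a / R ^ 2)) by
      rw [← hxa, ← hyb]; field_simp, Real.sqrt_mul (sq_nonneg _), Real.sqrt_sq hR0.le]
    ring
  rw [← hsub, e]
  refine le_trans (le_of_eq ?_) (mul_le_mul_of_nonneg_left (BandFree.two_thirds_le_integral hx0 hxy)
    (by positivity : (0 : ℝ) ≤ 2 / (x + y)))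
  field_simp

/-- Both forms of the gain over the tube, in `x = √a`, `v = √V`, `y = √b`. -/
theorem gain_scalar {x v y : ℝ} (hx : 0 ≤ x) (hxv : x ≤ v) (hvy : v ≤ y)
    (hv : 56 / 100 ≤ v) (hv1 : v ≤ 5643 / 10000) :
    Real.sqrt π * v + (y - x) ^ 2 / 6 ≤
        Real.sqrt π * (v ^ 2 + x * y) / (x + y) + 2 / 3 * (y - x) ^ 2 ∧
      Real.sqrt π * v + (y - v) ^ 2 / 2 ≤
        Real.sqrt π * (v ^ 2 + x * y) / (x + y) + 2 / 3 * (y - x) ^ 2 := by
  set r := Real.sqrt π
  have hr : r ≤ 17725 / 10000 := Real.sqrt_le_iff.2 ⟨by norm_num, by nlinarith [Real.pi_lt_d4]⟩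
  have hr0 : 0 ≤ r := Real.sqrt_nonneg _
  set p := y - v
  set q := v - x
  have hp : 0 ≤ p := sub_nonneg.2 hvy
  have hq : 0 ≤ q := sub_nonneg.2 hxv
  have hS : 0 < x + y := by linarith
  have e : r * (v ^ 2 + x * y) / (x + y) = r * v - r * p * q / (x + y) := by
    simp only [p, q]; field_simp; ring
  rw [e]
  have hpq : r * p * q ≤ 17725 / 10000 * (p * q) := by
    rw [mul_assoc]; exact mul_le_mul_of_nonneg_right hr (mul_nonneg hp hq)
  have hSe : x + y = 2 * v + p - q := by simp only [p, q]; ring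
  have hDe : y - x = p + q := by simp only [p, q]; ring
  have key : 17725 / 10000 * (p * q) ≤ 1 / 2 * (p + q) ^ 2 * (2 * v + p - q) ∧
      17725 / 10000 * (p * q) ≤ (2 / 3 * (p + q) ^ 2 - p ^ 2 / 2) * (2 * v + p - q) := by
    rcases le_or_gt (89 / 100) (2 * v + p - q) with hbig | hsmall
    · constructor
      · have h2 := mul_le_mul_of_nonneg_left hbig (show 0 ≤ 1 / 2 * (p + q) ^ 2 by positivity)
        nlinarith [sq_nonneg (p - q), mul_nonneg hp hq]
      · have h1 : 2 * (p * q) ≤ 2 / 3 * (p + q) ^ 2 - p ^ 2 / 2 := by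
          nlinarith [sq_nonneg (p - 2 * q)]
        have h2 := mul_le_mul h1 hbig (by norm_num)
          (h1.trans' (by nlinarith [mul_nonneg hp hq]))
        nlinarith [mul_nonneg hp hq]
    · have hqp : p + 23 / 100 ≤ q := by linarith
      have hp1 : p ≤ 34 / 100 := by linarith
      have hqv : q ≤ v := by linarith
      set d := q - p with hd
      have hd1 : d ≤ 5643 / 10000 := by linarith
      have hpq0 : 0 ≤ p * q := mul_nonneg hp hq
      have hcub : 5643 / 10000 * ((5643 / 10000 - d) * (2 * d - 4675 / 10000)) ≤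
          1 / 2 * (112 / 100 - d) * d ^ 2 := by
        have h3 : d * d ^ 2 ≤ 5643 / 10000 * d ^ 2 :=
          mul_le_mul_of_nonneg_right hd1 (sq_nonneg d)
        nlinarith [sq_nonneg (d - 3202 / 10000)]
      have hS' : 112 / 100 - d ≤ 2 * v + p - q := by linarith
      have hmain : p * q * (2 * d - 4675 / 10000) ≤ 1 / 2 * (112 / 100 - d) * d ^ 2 := by
        rcases le_or_gt (2 * d - 4675 / 10000) 0 with hneg | hpos
        · exact (mul_nonpos_of_nonneg_of_nonpos hpq0 hneg).trans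
            (mul_nonneg (by linarith) (sq_nonneg d))
        · refine le_trans ?_ hcub
          have hb : p * q ≤ (5643 / 10000 - d) * (5643 / 10000) :=
            mul_le_mul (by linarith) (by linarith) hq (by linarith)
          refine (mul_le_mul_of_nonneg_right hb hpos.le).trans (le_of_eq ?_)
          ring
      have hA : 17725 / 10000 * (p * q) ≤ 1 / 2 * (p + q) ^ 2 * (2 * v + p - q) := by
        have e2 : 1 / 2 * (p + q) ^ 2 * (2 * v + p - q) =
            1 / 2 * (2 * v + p - q) * d ^ 2 + 2 * (2 * v + p - q) * (p * q) := by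
          rw [hd]; ring
        have h3 := mul_le_mul_of_nonneg_right hS' (sq_nonneg d)
        have h4 := mul_le_mul_of_nonneg_right hS' hpq0
        rw [e2]
        nlinarith
      have h2 : 1 / 2 * (p + q) ^ 2 ≤ 2 / 3 * (p + q) ^ 2 - p ^ 2 / 2 := by
        have := pow_le_pow_left₀ (by linarith) (show 2 * p ≤ p + q by linarith) 2
        nlinarith
      exact ⟨hA, hA.trans (mul_le_mul_of_nonneg_right h2 (by linarith))⟩
  constructor
  · have h : r * p * q / (x + y) ≤ (2 / 3 - 1 / 6) * (y - x) ^ 2 := by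
      rw [div_le_iff₀ hS, hSe, hDe]
      linarith [key.1]
    linarith
  · have h : r * p * q / (x + y) ≤ 2 / 3 * (y - x) ^ 2 - p ^ 2 / 2 := by
      rw [div_le_iff₀ hS, hSe, hDe]
      linarith [key.2]
    linarith

end Vale.Agent.P232.Corner
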