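import Vale.Agent.P232.T1.Spec

/-!
# P232 tube corner: planar facts about one slice

Two affine fields (the quarter circle over `[0, X]` and half of it) bound the length from below
with losses only through the wrapped widths; the chord pays for narrow bands.
-/

open MeasureTheory Set
open scoped Real

noncomputable section

namespace Vale.Agent.P232.Corner

variable {s : Slice} {l : ℝ}

theorem integral_wrap {F : ℝ → ℝ} (hF : Continuous F) (h1 : ∀ x, F x ≤ 1) {w X : ℝ} (hw : 0 ≤ w) :
    (∫ x in (0 : ℝ)..X, F x) - w ≤ ∫ x in w..X, F x := by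
  rw [← intervalIntegral.integral_add_adjacent_intervals (hF.intervalIntegrable 0 w)
    (hF.intervalIntegrable w X)]
  have := intervalIntegral.integral_mono_on (μ := volume) hw (hF.intervalIntegrable _ _)
    (intervalIntegrable_const (μ := volume) (c := (1 : ℝ))) fun x _ => h1 x
  simp only [intervalIntegral.integral_const, smul_eq_mul, mul_one, sub_zero] at this
  linarith

theorem sqrt_field_le (p q x : ℝ) : Real.sqrt (1 - (p * x + q) ^ 2) ≤ 1 :=
  Real.sqrt_le_one.2 (by nlinarith [sq_nonneg (p * x + q)])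

/-- The field of the quarter circle over `[0, X]`. -/
theorem flux_quarter (h : s.Master l) (hX : 0 < s.X) :
    π / 4 * s.X + s.A / s.X - s.u - s.w ≤ l := by
  have hb : |1 / s.X * s.w + 0| ≤ 1 := by
    rw [add_zero, abs_of_nonneg (by positivity [s.w_nonneg]), div_mul_eq_mul_div, one_mul,
      div_le_one hX]
    exact s.w_le
  have hX1 : 1 / s.X * s.X + 0 = 1 := by field_simp; ring
  have h1 := h (1 / s.X) 0 hb (by rw [hX1, abs_one])
  simp only [Slice.flux, hX1, one_mul, add_zero] at h1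
  have hI := integral_wrap (F := fun x => Real.sqrt (1 - (1 / s.X * x + 0) ^ 2)) (by fun_prop)
    (fun x => sqrt_field_le _ _ x) (X := s.X) s.w_nonneg
  have e : ∫ x in (0 : ℝ)..s.X, Real.sqrt (1 - (1 / s.X * x + 0) ^ 2) = s.X * (π / 4) := by
    have := (Slice.integral_arc hX).1
    simp only [sub_zero] at this
    rw [← this]
    exact intervalIntegral.integral_congr fun x _ => by ring_nf
  simp only [add_zero] at hI e
  rw [e] at hI
  have hwY : 1 / s.X * (s.A - s.w) + 1 / s.X * s.w * s.Y = s.A / s.X := by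
    rcases s.w_nonneg.eq_or_lt with hw | hw
    · rw [← hw]; ring
    · rw [s.Y_eq hw]; ring
  linarith

/-- `√(π A)` bounds the length up to the wrapped widths. -/
theorem sqrt_sub_wrap_le (h : s.Master l) : Real.sqrt (π * s.A) - (s.u + s.w) ≤ l := by
  have hA : 0 ≤ s.A := s.u_nonneg.trans s.u_le_A
  rcases (s.w_nonneg.trans s.w_le).eq_or_lt with hX | hX
  · have hA0 : s.A = 0 := le_antisymm (hX ▸ s.A_le_X) hA
    rw [hA0, mul_zero, Real.sqrt_zero]
    linarith [h.nonneg, s.u_nonneg, s.w_nonneg]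
  have h1 := Slice.amgm hA hX
  linarith [flux_quarter h hX]

theorem half_arc :
    (29 / 100 : ℝ) ≤ ∫ t in (1 / 2 : ℝ)..1, Real.sqrt (1 - t ^ 2) := by
  have hc : Continuous fun t : ℝ => Real.sqrt (1 - t ^ 2) := by fun_prop
  have step : ∀ a b ya yb : ℝ, a < b → 0 ≤ a → b ≤ 1 → 0 ≤ ya → 0 ≤ yb → ya ^ 2 ≤ 1 - a ^ 2 →
      yb ^ 2 ≤ 1 - b ^ 2 → (b - a) * (ya + yb) / 2 ≤ ∫ t in a..b, Real.sqrt (1 - t ^ 2) := by
    intro a b ya yb hab ha hb hya hyb h1 h2
    have hL : Continuous fun t : ℝ => ya + (yb - ya) / (b - a) * (t - a) := by fun_prop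
    refine le_trans (le_of_eq ?_) (intervalIntegral.integral_mono_on hab.le
      (hL.intervalIntegrable _ _) (hc.intervalIntegrable _ _) fun t ht => ?_)
    · have hder : ∀ t ∈ uIcc a b, HasDerivAt
          (fun t => ya * t + (yb - ya) / (b - a) * ((t - a) ^ 2 / 2))
          (ya + (yb - ya) / (b - a) * (t - a)) t := fun t _ => by
        refine (((hasDerivAt_id t).const_mul ya).add
          ((((hasDerivAt_id t).sub_const a).pow 2).div_const 2 |>.const_mul _)).congr_deriv ?_
        simp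
      rw [intervalIntegral.integral_eq_sub_of_hasDerivAt hder (hL.intervalIntegrable _ _)]
      have : b - a ≠ 0 := (sub_pos.2 hab).ne'
      field_simp
      ring
    · set θ := (t - a) / (b - a)
      have hθ0 : 0 ≤ θ := div_nonneg (by linarith [ht.1]) (by linarith)
      have hθ1 : θ ≤ 1 := (div_le_one (by linarith)).2 (by linarith [ht.2])
      have e : ya + (yb - ya) / (b - a) * (t - a) = (1 - θ) * ya + θ * yb := by
        simp only [θ]; ring
      have et : t = (1 - θ) * a + θ * b := by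
        have : θ * (b - a) = t - a := div_mul_cancel₀ _ (sub_pos.2 hab).ne'
        linarith
      rw [e]
      apply Real.le_sqrt_of_sq_le
      rw [et]
      nlinarith [mul_nonneg hθ0 (sub_nonneg.2 hθ1), sq_nonneg (ya - yb), sq_nonneg (a - b),
        mul_le_mul_of_nonneg_left h1 (sub_nonneg.2 hθ1), mul_le_mul_of_nonneg_left h2 hθ0]
  rw [← intervalIntegral.integral_add_adjacent_intervals (b := (3 / 4 : ℝ))
    (hc.intervalIntegrable _ _) (hc.intervalIntegrable _ _),
    ← intervalIntegral.integral_add_adjacent_intervals (a := (1 / 2 : ℝ)) (b := (5 / 8 : ℝ))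
      (c := (3 / 4 : ℝ)) (hc.intervalIntegrable _ _) (hc.intervalIntegrable _ _),
    ← intervalIntegral.integral_add_adjacent_intervals (a := (3 / 4 : ℝ)) (b := (7 / 8 : ℝ))
      (c := (1 : ℝ)) (hc.intervalIntegrable _ _) (hc.intervalIntegrable _ _)]
  have e1 := step (1 / 2) (5 / 8) (866 / 1000) (780 / 1000) (by norm_num) (by norm_num)
    (by norm_num) (by norm_num) (by norm_num) (by norm_num) (by norm_num)
  have e2 := step (5 / 8) (3 / 4) (780 / 1000) (661 / 1000) (by norm_num) (by norm_num)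
    (by norm_num) (by norm_num) (by norm_num) (by norm_num) (by norm_num)
  have e3 := step (3 / 4) (7 / 8) (661 / 1000) (484 / 1000) (by norm_num) (by norm_num)
    (by norm_num) (by norm_num) (by norm_num) (by norm_num) (by norm_num)
  have e4 := step (7 / 8) 1 (484 / 1000) 0 (by norm_num) (by norm_num)
    (by norm_num) (by norm_num) (by norm_num) (by norm_num) (by norm_num)
  linarith

/-- The field of half a quarter circle over `[0, X]`. -/
theorem flux_half (h : s.Master l) (hX : 0 < s.X) :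
    s.Y / 2 + s.A / (2 * s.X) + 58 / 100 * s.X - s.u - s.w ≤ l := by
  have hXw : 1 / (2 * s.X) * s.w ≤ 1 / 2 := by
    rw [div_mul_eq_mul_div, one_mul, div_le_iff₀ (by positivity)]; linarith [s.w_le]
  have hw0 : 0 ≤ 1 / (2 * s.X) * s.w := by positivity [s.w_nonneg]
  have hX1 : 1 / (2 * s.X) * s.X + 1 / 2 = 1 := by field_simp; ring
  have h1 := h (1 / (2 * s.X)) (1 / 2) (by rw [abs_of_nonneg (by linarith)]; linarith)
    (by rw [hX1, abs_one])
  simp only [Slice.flux, hX1, one_mul] at h1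
  have hI := integral_wrap (F := fun x => Real.sqrt (1 - (1 / (2 * s.X) * x + 1 / 2) ^ 2))
    (by fun_prop) (fun x => sqrt_field_le _ _ x) (X := s.X) s.w_nonneg
  have e : ∫ x in (0 : ℝ)..s.X, Real.sqrt (1 - (1 / (2 * s.X) * x + 1 / 2) ^ 2) =
      2 * s.X * ∫ t in (1 / 2 : ℝ)..1, Real.sqrt (1 - t ^ 2) := by
    rw [intervalIntegral.integral_comp_mul_add (fun t => Real.sqrt (1 - t ^ 2))
      (by positivity : (1 / (2 * s.X) : ℝ) ≠ 0) (1 / 2), hX1]
    simp
  rw [e] at hI
  have hwY : 1 / (2 * s.X) * (s.A - s.w) + (1 / (2 * s.X) * s.w + 1 / 2) * s.Y =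
      s.A / (2 * s.X) + s.Y / 2 := by
    rcases s.w_nonneg.eq_or_lt with hw | hw
    · rw [← hw]; ring
    · rw [s.Y_eq hw]; ring
  have := mul_le_mul_of_nonneg_left half_arc (by positivity : (0 : ℝ) ≤ 2 * s.X)
  linarith

/-- The band width of a slice. -/
def bw (s : Slice) : ℝ := if s.w = 0 then s.u else if s.u = 0 then s.w else 0

theorem bw_mem (s : Slice) : 0 ≤ bw s ∧ bw s ≤ s.u + s.w := by
  unfold bw
  split_ifs <;> constructor <;> linarith [s.u_nonneg, s.w_nonneg]

/-- Islands and crosses have no loss up to one half; a band spans the square. -/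
theorem nonband_or_chord (h : s.Master l) (hA : s.A ≤ 1 / 2) :
    Real.sqrt (π * s.A) ≤ l ∨
      (1 ≤ l ∧ bw s ≤ s.A ∧ bw s = s.u + s.w ∧ Real.sqrt (1 + (s.A - bw s) ^ 2) ≤ l) := by
  have hch := Slice.chord_le h
  by_cases hw : s.w = 0 <;> by_cases hu : s.u = 0
  · exact Or.inl (Slice.island_le h hw hu)
  · have hX : s.X = 1 := by
      by_contra hne
      exact hu (s.u_eq (lt_of_le_of_ne s.X_le hne))
    have he : bw s = s.u := by rw [bw, if_pos hw]
    rw [hX, hw, sub_zero, one_pow] at hch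
    refine Or.inr ⟨le_trans (Real.one_le_sqrt.2 (by nlinarith [sq_nonneg (s.Y - s.u)])) hch,
      he ▸ s.u_le_A, by rw [he, hw, add_zero], le_trans (Real.sqrt_le_sqrt ?_) hch⟩
    rw [he]
    have := mul_self_le_mul_self (sub_nonneg.2 s.u_le_A)
      (show s.A - s.u ≤ s.Y - s.u by linarith [s.A_le_Y])
    nlinarith
  · have hw' : 0 < s.w := s.w_nonneg.lt_of_ne (Ne.symm hw)
    have he : bw s = s.w := by rw [bw, if_neg hw, if_pos hu]
    rw [s.Y_eq hw', hu, sub_zero, one_pow] at hch
    refine Or.inr ⟨le_trans (Real.one_le_sqrt.2 (by nlinarith [sq_nonneg (s.X - s.w)])) hch,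
      he ▸ s.w_le_A, by rw [he, hu, zero_add], le_trans (Real.sqrt_le_sqrt ?_) hch⟩
    rw [he]
    have := mul_self_le_mul_self (sub_nonneg.2 s.w_le_A)
      (show s.A - s.w ≤ s.X - s.w by linarith [s.A_le_X])
    nlinarith
  · refine Or.inl ((Real.sqrt_le_sqrt (mul_le_mul_of_nonneg_left ?_ Real.pi_pos.le)).trans
      (s.nonband_le h (Or.inr ⟨s.w_nonneg.lt_of_ne (Ne.symm hw), s.u_nonneg.lt_of_ne (Ne.symm hu)⟩)))
    exact le_min le_rfl (by linarith)

/-- No band loses below `1/π`. -/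
theorem no_loss_low (h : s.Master l) (hA : s.A ≤ 1 / π) : Real.sqrt (π * s.A) ≤ l := by
  have hπ := Real.pi_gt_three
  have h2 : 1 / π ≤ 1 / 2 := one_div_le_one_div_of_le (by norm_num) (by linarith)
  rcases nonband_or_chord h (hA.trans h2) with h1 | ⟨h1, -⟩
  · exact h1
  · refine le_trans (Real.sqrt_le_one.2 ?_) h1
    calc π * s.A ≤ π * (1 / π) := mul_le_mul_of_nonneg_left hA Real.pi_pos.le
      _ = 1 := by field_simp

/-- Narrow bands do not lose slightly above `1/π`. -/
theorem no_loss_narrow (h : s.Master l) (hA : s.A ≤ 329 / 1000) (hu : bw s ≤ 29 / 200) :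
    Real.sqrt (π * s.A) ≤ l := by
  rcases le_or_gt s.A (1 / π) with hlow | hlow
  · exact no_loss_low h hlow
  rcases nonband_or_chord h (by linarith) with h1 | ⟨-, hb, -, h1⟩
  · exact h1
  refine (Real.sqrt_le_sqrt ?_).trans h1
  have hπ := Real.pi_lt_d4
  have hA0 : 0.318 ≤ s.A := by
    refine le_trans ?_ hlow.le
    rw [le_div_iff₀ Real.pi_pos]; nlinarith
  nlinarith [mul_self_le_mul_self (show 0 ≤ s.A - 29 / 200 by linarith)
    (show s.A - 29 / 200 ≤ s.A - bw s by linarith)]

/-- Bands lose at most `μ` times their width. -/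
theorem loss_le (h : s.Master l) {B μ : ℝ} (hB : B ≤ 1 / 2) (hμ : 0 ≤ μ) (hμ1 : μ ≤ 1)
    (hq : (31416 / 10000 - 2 * μ) * B ≤ 1 - μ ^ 2) (hA : s.A ≤ B) :
    Real.sqrt (π * s.A) - μ * bw s ≤ l := by
  have hb0 := (bw_mem s).1
  rcases nonband_or_chord h (hA.trans hB) with h1 | ⟨h0, -, -, h1⟩
  · linarith [mul_nonneg hμ hb0]
  have hs := Real.sq_sqrt (show 0 ≤ 1 + (s.A - bw s) ^ 2 by positivity)
  set c := Real.sqrt (1 + (s.A - bw s) ^ 2)
  have hc : 1 ≤ c := Real.one_le_sqrt.2 (by nlinarith [sq_nonneg (s.A - bw s)])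
  have hA0 : 0 ≤ s.A := s.u_nonneg.trans s.u_le_A
  have key : π * s.A ≤ (c + μ * bw s) ^ 2 := by
    have hπ := Real.pi_lt_d4
    have h2 : π * s.A ≤ 1 + 2 * μ * s.A - μ ^ 2 := by
      nlinarith [mul_le_mul_of_nonneg_right hA (show (0 : ℝ) ≤ 31416 / 10000 - 2 * μ by linarith)]
    nlinarith [mul_nonneg (mul_nonneg hμ hb0) (sub_nonneg.2 hc), sq_nonneg (s.A - bw s - μ),
      sq_nonneg (μ * bw s)]
  have := Real.sqrt_le_iff.2 ⟨by positivity, key⟩
  linarith

/-- Bands lose at most their width up to one half. -/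
theorem loss_le_bw (h : s.Master l) (hA : s.A ≤ 1 / 2) :
    Real.sqrt (π * s.A) - bw s ≤ l := by
  rcases nonband_or_chord h hA with h1 | ⟨-, -, he, -⟩
  · linarith [(bw_mem s).1]
  · rw [he]; exact sqrt_sub_wrap_le h

end Vale.Agent.P232.Corner
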