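import Vale.Agent.P232.Corner

/-!
# P232 tube corner: in a flat near-optimal corner the other two top areas vanish
-/

open MeasureTheory Set Filter
open scoped Real Topology

noncomputable section

namespace Vale.Agent.P232.Corner

variable {D : Set R3} {M : ℝ} {i j k : Fin 3}

/-- A cheap island in the stack: all bands under it are bought with area. -/
theorem wrap_le_drop (h : IsReduced D M) (hij : i ≠ j) (hM : M ≤ 1005 / 1000)
    (ha : 301 / 1000 ≤ Phase1.endTop D i j)
    (hG : ∫ z in (0 : ℝ)..1,
      (rightHeight (heightExt D i j z) + topWidth (heightExt D i j z)) ≤ 2 * (17 / 50000))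
    {z₀ : ℝ} (hz₀ : z₀ ∈ Ioo (0 : ℝ) 1) :
    13 / 100 * rightHeight (heightExt D i j z₀) ≤
        Phase1.endBot D i j - Phase1.endTop D i j ∧
      13 / 100 * topWidth (heightExt D i j z₀) ≤ Phase1.endBot D i j - Phase1.endTop D i j := by
  have hπ := Real.pi_lt_d4
  have hπ' := Real.pi_gt_d4
  set g := fun z => rightHeight (heightExt D i j z) + topWidth (heightExt D i j z) with hg
  have hgI : IntervalIntegrable g volume 0 1 :=
    (T1.antitone_u h.down).intervalIntegrable.add (T1.antitone_w h.down hij).intervalIntegrable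
  obtain ⟨z₁, hz₁, hl₁, hg₁⟩ : ∃ z ∈ Ioo (0 : ℝ) 1,
      Slicing.len (heightExt D i j z) ≤ 102 / 100 ∧ g z ≤ 4 / 1000 := by
    by_contra hno
    push Not at hno
    have hint : ∫ z in (0 : ℝ)..1, (102 / 100 - 13 * g z) ≤
        ∫ z in (0 : ℝ)..1, Slicing.len (heightExt D i j z) := by
      refine intervalIntegral.integral_mono_on_of_le_Ioo zero_le_one
        (intervalIntegrable_const.sub (hgI.const_mul 13)) (intervalIntegrable_len h hij)
        fun z hz => ?_
      set s := (T1.isHeight_ext (i := i) (j := j) h.down z).slice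
      have hsA : 301 / 1000 ≤ s.A :=
        ha.trans (Phase1.sliceArea_mem_ends (i := i) (j := j) h.down hz).1
      have h2 : 972 / 1000 ≤ Real.sqrt (π * s.A) := by
        apply Real.le_sqrt_of_sq_le
        nlinarith
      have h3 : Real.sqrt (π * s.A) - g z ≤ Slicing.len (heightExt D i j z) :=
        sqrt_sub_wrap_le (slice_master h z)
      have hg0 : 0 ≤ g z := add_nonneg s.u_nonneg s.w_nonneg
      rcases le_or_gt (Slicing.len (heightExt D i j z)) (102 / 100) with hle | hgt
      · linarith [hno z hz hle]
      · linarith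
    rw [intervalIntegral.integral_sub intervalIntegrable_const (hgI.const_mul 13),
      intervalIntegral.integral_const_mul, intervalIntegral.integral_const] at hint
    simp only [sub_zero, one_smul] at hint
    linarith [integral_len_le h hij]
  set f := heightExt D i j z₀
  set f' := heightExt D i j z₁
  have hfh : IsHeight f := T1.isHeight_ext h.down z₀
  have hfh' : IsHeight f' := T1.isHeight_ext h.down z₁
  have hm := slice_master (i := i) (j := j) h z₁
  set s := (T1.isHeight_ext (i := i) (j := j) h.down z₁).slice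
  have hsA : 301 / 1000 ≤ s.A :=
    ha.trans (Phase1.sliceArea_mem_ends (i := i) (j := j) h.down hz₁).1
  have hsX : 0 < s.X := by linarith [s.A_le_X]
  have hsg : s.u + s.w ≤ 4 / 1000 := hg₁
  have hX : s.X ≤ 87 / 100 := by
    by_contra hX
    push Not at hX
    have h1 : π / 4 * s.X + 301 / 1000 / s.X ≤ π / 4 * s.X + s.A / s.X := by gcongr
    have h2 : (1029 / 1000 : ℝ) ≤ π / 4 * s.X + 301 / 1000 / s.X := by
      rw [add_comm, div_add' _ _ _ hsX.ne', le_div_iff₀ hsX]
      nlinarith [sq_nonneg (s.X - 87 / 100), s.X_le]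
    linarith [flux_quarter hm hsX]
  have hY : s.Y ≤ 87 / 100 := by
    by_contra hY
    push Not at hY
    have h2 : (590 / 1000 : ℝ) ≤ s.A / (2 * s.X) + 58 / 100 * s.X := by
      rw [div_add' _ _ _ (by positivity), le_div_iff₀ (by positivity)]
      nlinarith [sq_nonneg (s.X - 51 / 100)]
    linarith [flux_half hm hsX]
  have hu1 : rightHeight f' = 0 := hfh'.rightHeight_eq_zero (lt_of_le_of_lt hX (by norm_num))
  have hw1 : topWidth f' = 0 := by
    refine le_antisymm (le_of_not_gt fun hw => ?_) IsHeight.topWidth_nonneg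
    have : leftHeight f' = 1 := hfh'.leftHeight_eq_one hw
    have hY' : leftHeight f' ≤ 87 / 100 := hY
    linarith
  have hu0 : 0 ≤ rightHeight f := hfh.slice.u_nonneg
  have hw0 : 0 ≤ topWidth f := IsHeight.topWidth_nonneg
  have hends := Phase1.sliceArea_mem_ends (i := i) (j := j) h.down hz₀
  have hends1 := Phase1.sliceArea_mem_ends (i := i) (j := j) h.down hz₁
  rcases le_or_gt z₁ z₀ with hge | hlt
  · have hmono : ∀ x, f x ≤ f' x := fun x => antitone_heightExt_fst h.down x hge
    have hu : rightHeight f ≤ rightHeight f' :=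
      le_csInf ((nonempty_Ioo.2 zero_lt_one).image _) (by
        rintro _ ⟨x, hx, rfl⟩
        exact (hfh.rightHeight_le hx).trans (hmono x))
    have hw' : topWidth f ≤ topWidth f' := T1.antitone_w h.down hij hge
    have hd : 0 ≤ Phase1.endBot D i j - Phase1.endTop D i j := by
      linarith [hends.1.trans hends.2]
    constructor <;> linarith
  have hmono : ∀ x, f' x ≤ f x := fun x => antitone_heightExt_fst h.down x hlt.le
  have hI : ∀ z, IntervalIntegrable (heightExt D i j z) volume 0 1 := fun z =>
    (antitone_heightExt h.down z).intervalIntegrable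
  have hId : IntervalIntegrable (fun x => f x - f' x) volume 0 1 := (hI z₀).sub (hI z₁)
  have hdrop : ∫ x in (0 : ℝ)..1, (f x - f' x) ≤ Phase1.endBot D i j - Phase1.endTop D i j := by
    rw [intervalIntegral.integral_sub (hI z₀) (hI z₁)]
    exact sub_le_sub hends.2 hends1.1
  constructor
  · refine le_trans ?_ hdrop
    have hlow : 13 / 100 * rightHeight f ≤ ∫ x in (87 / 100 : ℝ)..1, (f x - f' x) := by
      have := intervalIntegral.integral_mono_on_of_le_Ioo (μ := volume)
        (f := fun _ : ℝ => rightHeight f) (g := fun x => f x - f' x)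
        (by norm_num : (87 / 100 : ℝ) ≤ 1) intervalIntegrable_const
        (hId.mono_set (uIcc_subset_uIcc (by norm_num [mem_uIcc]) right_mem_uIcc)) fun x hx => by
          rw [hfh'.eq_zero (lt_of_le_of_lt hX hx.1) hx.2, sub_zero]
          exact hfh.rightHeight_le ⟨lt_trans (by norm_num) hx.1, hx.2⟩
      rw [intervalIntegral.integral_const, smul_eq_mul] at this
      linarith
    exact hlow.trans (intervalIntegral.integral_mono_interval (by norm_num) (by norm_num) le_rfl
      (Eventually.of_forall fun x => sub_nonneg.2 (hmono x)) hId)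
  · refine le_trans ?_ hdrop
    have hwle : topWidth f ≤ 1 := (IsHeight.topWidth_mem (f := f)).2
    have hlow : 13 / 100 * topWidth f ≤ ∫ x in (0 : ℝ)..topWidth f, (f x - f' x) := by
      have := intervalIntegral.integral_mono_on_of_le_Ioo (μ := volume)
        (f := fun _ : ℝ => (13 / 100 : ℝ)) (g := fun x => f x - f' x) hw0 intervalIntegrable_const
        (hId.mono_set (uIcc_subset_uIcc left_mem_uIcc (by simp [mem_uIcc, hw0, hwle]))) fun x hx => by
          rw [hfh.eq_one hx.1 hx.2]
          linarith [hfh'.le_leftHeight (x := x) ⟨hx.1, hx.2.trans_le hwle⟩,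
            (show leftHeight f' ≤ 87 / 100 from hY)]
      rw [intervalIntegral.integral_const, smul_eq_mul, sub_zero] at this
      linarith
    exact hlow.trans (intervalIntegral.integral_mono_interval le_rfl hw0 hwle
      (Eventually.of_forall fun x => sub_nonneg.2 (hmono x)) hId)

/-- Near equality in the tube corner flattens the direction and empties the other two. -/
theorem tube_eq {ε : ℝ} (hε : 0 < ε) : ∃ η : ℝ, 0 < η ∧ ∀ (D : Set R3) (M : ℝ),
    IsReduced D M → |boxVolume D - 1 / π| < η → M ≤ 1 + η →
      ∀ i j k : Fin 3, i ≠ j → k ≠ i → k ≠ j → ∀ a b au aw : ℝ,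
        Tendsto (sliceArea D i j) (𝓝[<] 1) (𝓝 a) → Tendsto (sliceArea D i j) (𝓝[>] 0) (𝓝 b) →
          Tendsto (sliceArea D k j) (𝓝[<] 1) (𝓝 au) → Tendsto (sliceArea D k i) (𝓝[<] 1) (𝓝 aw) →
            au ≤ 17 / 50000 → aw ≤ 17 / 50000 → b - a ≤ ε ∧ au ≤ ε ∧ aw ≤ ε := by
  set ε' := min (ε / 10) (1 / 1000) with hε'
  have hε'0 : 0 < ε' := lt_min (by positivity) (by norm_num)
  obtain ⟨η, hη, hflat⟩ := tube_flat hε'0
  refine ⟨min η (1 / 1000), lt_min hη (by norm_num), ?_⟩
  intro D M h hV hM i j k hij hki hkj a b au aw hta htb hau haw hu hw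
  have hmin : min η (1 / 1000 : ℝ) ≤ 1 / 1000 := min_le_right _ _
  have hba : b - a ≤ ε' := hflat D M h (hV.trans_le (min_le_left _ _))
    (hM.trans (by linarith [min_le_left η (1 / 1000 : ℝ)])) i j k hij hki hkj a b au aw hta htb hau haw hu hw
  have hε1 : ε' ≤ ε / 10 := min_le_left _ _
  have hε2 : ε' ≤ 1 / 1000 := min_le_right _ _
  refine ⟨by linarith, ?_⟩
  have hall : ∀ l, l = i ∨ l = j ∨ l = k := by
    obtain ⟨k', hk'i, hk'j, hall'⟩ := exists_third hij
    rcases hall' k with e | e | e
    · exact absurd e hki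
    · exact absurd e hkj
    · exact e ▸ hall'
  have eu := tendsto_nhds_unique (tendsto_sliceArea h.down hij hki hkj hall).2 hau
  have ew := tendsto_nhds_unique (tendsto_sliceArea_transpose h.down hij hki hkj hall).2 haw
  have ea := tendsto_nhds_unique hta (Phase1.tendsto_ends h.down).1
  have eb := tendsto_nhds_unique htb (Phase1.tendsto_ends h.down).2
  obtain ⟨haV, hVb⟩ := Phase1.ends_volume h.down h.subset h.measurable hij
  have hpi : (3183 / 10000 : ℝ) ≤ 1 / π := by
    rw [le_div_iff₀ Real.pi_pos]; linarith [Real.pi_lt_d4]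
  have ha : 301 / 1000 ≤ Phase1.endTop D i j := by linarith [(abs_lt.1 hV).1]
  have iu : IntervalIntegrable (fun z => rightHeight (heightExt D i j z)) volume 0 1 :=
    (T1.antitone_u h.down).intervalIntegrable
  have iw : IntervalIntegrable (fun z => topWidth (heightExt D i j z)) volume 0 1 :=
    (T1.antitone_w h.down hij).intervalIntegrable
  have hG : ∫ z in (0 : ℝ)..1,
      (rightHeight (heightExt D i j z) + topWidth (heightExt D i j z)) ≤ 2 * (17 / 50000) := by
    rw [intervalIntegral.integral_add iu iw, eu, ew]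
    linarith
  have hz := fun z hz => wrap_le_drop h hij (by linarith) ha hG (z₀ := z) hz
  constructor
  · rw [← eu]
    refine le_trans (intervalIntegral.integral_mono_on_of_le_Ioo zero_le_one iu
      intervalIntegrable_const (g := fun _ => 100 / 13 * ε') fun z hz' => ?_) ?_
    · linarith [(hz z hz').1]
    · simp; linarith
  · rw [← ew]
    refine le_trans (intervalIntegral.integral_mono_on_of_le_Ioo zero_le_one iw
      intervalIntegrable_const (g := fun _ => 100 / 13 * ε') fun z hz' => ?_) ?_
    · linarith [(hz z hz').2]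
    · simp; linarith

end Vale.Agent.P232.Corner
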